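import Crest.Agent.X277.Cns.Prod
import Crest.Agent.X277.Cns.Lift

/-!
# Row 262, road B, Borel spaces (helper11), part 0: the fields and the model

`F = K(τ)` carries the action `τ ↦ c τ`; `S` is a model of `M`; `E₀ = Frac (K ⊗ M)`, `L = E₀(t)`.

* `isPF_rf`     : `K(τ)` and `M` are independent in `(K ⊗ M)(t)`;
* `BF`          : the data; `D.β : M → L`; `D.al hc : F → L`, `τ ↦ β c * t`; `D.pf_al`;
* `D.wv a w`    : the family `a j τ ^ w j` of weight vectors; `D.bt S a w` its Borel family;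
* `D.mdl S P hP`: the Borel space of a model `P` whose coordinates are weight vectors.
-/

set_option autoImplicit false
set_option linter.unusedSectionVars false
set_option linter.style.haveILetI false

open Polynomial
open scoped TensorProduct

noncomputable section

namespace Crest.Agent.X262.Ms11

open Crest.Agent.X277.Lef Crest.Agent.X277.AN.G1 Crest.Agent.X277.Cns
open Crest.Agent.R274.Prod1_134 Crest.Agent.R274.Prod4_134

section Fields

variable {k K F M E₀ L : Type} [Field k] [Field K] [Algebra k K] [Field F] [Algebra k F]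
  [Field M] [Algebra k M] [Field E₀] [Algebra k E₀] [Field L] [Algebra k L]

theorem evp_comp (ρ : E₀ →ₐ[k] L) (α₀ : K →ₐ[k] E₀) (t : L) (p : K[X]) :
    evp (ρ.comp α₀) t p = evp ρ t (p.map (α₀ : K →+* E₀)) := by
  rw [evp_apply, evp_apply, eval₂_map]
  rfl

theorem evp_comp_inj {ρ : E₀ →ₐ[k] L} {t : L} (h : IsRF ρ t) (α₀ : K →ₐ[k] E₀) :
    Function.Injective (evp (ρ.comp α₀) t) := by
  intro p q hpq
  rw [evp_comp, evp_comp] at hpq
  exact map_injective _ (α₀ : K →+* E₀).injective (h.inj hpq)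

/-- `K(τ)` and `M` generate `(K ⊗ M)(t)` freely -/
theorem isPF_rf {π : K →ₐ[k] F} {τ : F} (h : IsRF π τ) {α₀ : K →ₐ[k] E₀} {β₀ : M →ₐ[k] E₀}
    (h₀ : IsPF α₀ β₀) {ρ : E₀ →ₐ[k] L} {t : L} (hL : IsRF ρ t) {α : F →ₐ[k] L}
    (h1 : ∀ a, α (π a) = ρ (α₀ a)) (h2 : α τ = t) : IsPF α (ρ.comp β₀) := by
  classical
  have hev : ∀ p, α (evp π τ p) = evp ρ t (p.map (α₀ : K →+* E₀)) := by
    intro p
    rw [map_evp, h2, ← evp_comp]
    congr 2
    exact AlgHom.ext h1
  refine isPF_of_isFr ⟨(injective_iff_map_eq_zero _).2 fun z hz => ?_, fun x => ?_⟩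
  · let b := Module.Basis.ofVectorSpace k M
    obtain ⟨c, rfl⟩ := TensorProduct.eq_repr_basis_right b z
    choose p q hq hpq using fun i => h.isFr.frac' (c i)
    have hq' : ∀ i, evp π τ (q i) ≠ 0 := fun i => h.isFr.map_ne (hq i)
    let r : _ → K[X] := fun i => p i * ∏ j ∈ c.support.erase i, q j
    have hr : ∀ i ∈ c.support, evp π τ (r i) = c i * evp π τ (∏ j ∈ c.support, q j) := by
      intro i hi
      rw [← Finset.mul_prod_erase _ _ hi, map_mul, map_mul, hpq i, ← mul_assoc,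
        div_mul_cancel₀ _ (hq' i)]
    have hz1 : ∑ i ∈ c.support, α (c i) * ρ (β₀ (b i)) = 0 := by
      simpa [Finsupp.sum, map_sum] using hz
    have hz2 : evp ρ t (∑ i ∈ c.support, (r i).map (α₀ : K →+* E₀) * C (β₀ (b i))) = 0 := by
      rw [map_sum]
      have : ∀ i ∈ c.support, evp ρ t ((r i).map (α₀ : K →+* E₀) * C (β₀ (b i))) =
          α (evp π τ (∏ j ∈ c.support, q j)) * (α (c i) * ρ (β₀ (b i))) := by
        intro i hi
        rw [map_mul, evp_C, ← hev, hr i hi, map_mul]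
        ring
      rw [Finset.sum_congr rfl this, ← Finset.mul_sum, hz1, mul_zero]
    have hz3 := hL.eq_zero hz2
    have hz4 : ∀ m, ∀ i ∈ c.support, (r i).coeff m = 0 := by
      intro m i hi
      have h3 := congrArg (fun f => f.coeff m) hz3
      simp only [finsetSum_coeff, coeff_mul_C, coeff_map, coeff_zero] at h3
      have h4 : (∑ i ∈ c.support, (r i).coeff m ⊗ₜ[k] b i : K ⊗[k] M) = 0 := by
        apply h₀.inj
        rw [map_sum, map_zero, ← h3]
        simp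
      have h5 := congrArg (fun z => TensorProduct.equivFinsuppOfBasisRight b z i) h4
      simpa [TensorProduct.equivFinsuppOfBasisRight_apply_tmul_apply, Finsupp.single_apply,
        hi] using h5
    have hz5 : ∀ i ∈ c.support, c i = 0 := by
      intro i hi
      have h6 : r i = 0 := Polynomial.ext fun m => hz4 m i hi
      have h7 := hr i hi
      rw [h6, map_zero, map_prod] at h7
      exact (mul_eq_zero.1 h7.symm).resolve_right (Finset.prod_ne_zero_iff.2 fun j _ => hq' j)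
    exact Finset.sum_eq_zero fun i hi => by simp [hz5 i hi]
  · let g := Algebra.TensorProduct.productMap α (ρ.comp β₀)
    have h3 := hL.mem_subfield (Subfield.closure (g.range : Set L))
      (fun e => pf_mem_subfield h₀ ((Subfield.closure (g.range : Set L)).comap (ρ : E₀ →+* L))
        (fun a => Subfield.subset_closure ⟨π a ⊗ₜ 1, by simp [g, h1]⟩)
        (fun m => Subfield.subset_closure ⟨1 ⊗ₜ m, by simp [g]⟩) e)
      (Subfield.subset_closure ⟨τ ⊗ₜ 1, by simp [g, h2]⟩) x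
    obtain ⟨y, hy, z, hz, rfl⟩ := Subfield.mem_closure_iff.1 h3
    have h4 : Subring.closure (g.range : Set L) = g.range.toSubring :=
      Subring.closure_eq g.range.toSubring
    rw [h4] at hy hz
    obtain ⟨a, rfl⟩ := hy
    obtain ⟨a', rfl⟩ := hz
    exact ⟨a, a', rfl⟩

end Fields

/-- the fields of a Borel construction -/
structure BF (K F M E₀ L : Type) [Field K] [Algebra ℂ K] [Field F] [Algebra ℂ F] [Field M]
    [Algebra ℂ M] [Field E₀] [Algebra ℂ E₀] [Field L] [Algebra ℂ L] where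
  /-- the invariants -/
  π : K →ₐ[ℂ] F
  /-- the coordinate of weight one -/
  τ : F
  rf : IsRF π τ
  /-- first factor -/
  α₀ : K →ₐ[ℂ] E₀
  /-- second factor -/
  β₀ : M →ₐ[ℂ] E₀
  pf : IsPF α₀ β₀
  /-- the invariants of the Borel field -/
  ρ : E₀ →ₐ[ℂ] L
  /-- the coordinate of weight one of the Borel field -/
  t : L
  rfL : IsRF ρ t

/-- the index set of a Borel family -/
abbrev BI {ι : Type} (w : ι → ℕ) (m : ℕ) : Type := Σ j : ι, Fin (w j) → Fin (m + 1)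

instance {ι : Type} [Nonempty ι] (w : ι → ℕ) (m : ℕ) : Nonempty (BI w m) :=
  ⟨⟨Classical.arbitrary ι, fun _ => 0⟩⟩

variable {K F M E₀ L : Type} [Field K] [Algebra ℂ K] [Field F] [Algebra ℂ F] [Field M]
  [Algebra ℂ M] [Field E₀] [Algebra ℂ E₀] [Field L] [Algebra ℂ L]

theorem of_loc {O : LP L} {B C : Subalgebra ℂ L} (h : O.Of C) (hBC : B ≤ C)
    (hd : ∀ c ∈ C, ∃ d ∈ B, d ≠ 0 ∧ d⁻¹ ∈ C ∧ c * d ∈ B) : O.Of B := by
  refine ⟨hBC.trans h.le, fun f hf => ?_⟩
  obtain ⟨a, ha, c, hc, h0, h1⟩ := h.loc f hf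
  obtain ⟨d, hd1, hd2, hd3, hd4⟩ := hd a ha
  obtain ⟨d', hd1', hd2', hd3', hd4'⟩ := hd c hc
  have hv := LP.ne_of_inv_mem (h.le (hBC hd1)) hd2 (h.le hd3)
  have hv' := LP.ne_of_inv_mem (h.le (hBC hd1')) hd2' (h.le hd3')
  refine ⟨a * d * d', mul_mem hd4 hd1', c * d' * d, mul_mem hd4' hd1, ?_, by rw [← h1]; ring⟩
  rw [O.v_mul (h.le (hBC hd4')) (h.le (hBC hd1)), O.v_mul (h.le hc) (h.le (hBC hd1'))]
  exact mul_ne_zero (mul_ne_zero h0 hv') hv

namespace BF

variable (D : BF K F M E₀ L)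

/-- the base -/
def β : M →ₐ[ℂ] L := D.ρ.comp D.β₀

/-- the invariants -/
def κ : K →ₐ[ℂ] L := D.ρ.comp D.α₀

theorem β_apply (m : M) : D.β m = D.ρ (D.β₀ m) := rfl

theorem κ_apply (a : K) : D.κ a = D.ρ (D.α₀ a) := rfl

theorem rf_mul {c : M} (hc : c ≠ 0) : IsRF D.ρ (D.β c * D.t) :=
  D.rfL.scale ((_root_.map_ne_zero D.β₀).2 hc)

/-- the embedding `τ ↦ c t` -/
def al {c : M} (hc : c ≠ 0) : F →ₐ[ℂ] L :=
  D.rf.lift D.κ (D.β c * D.t) (evp_comp_inj (D.rf_mul hc) D.α₀)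

@[simp] theorem al_π {c : M} (hc : c ≠ 0) (a : K) : D.al hc (D.π a) = D.κ a := D.rf.lift_π _ _ _ a

@[simp] theorem al_τ {c : M} (hc : c ≠ 0) : D.al hc D.τ = D.β c * D.t := D.rf.lift_t _ _ _

theorem pf_al {c : M} (hc : c ≠ 0) : IsPF (D.al hc) D.β :=
  isPF_rf D.rf D.pf (D.rf_mul hc) (D.al_π hc) (D.al_τ hc)

section Fam

variable {ι : Type} (a : ι → K) (w : ι → ℕ)

/-- a family of weight vectors -/
def wv (j : ι) : F := D.π (a j) * D.τ ^ w j

variable (S : PModel ℂ M)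

/-- the embedding of `F` which belongs to the chart `i` of the base -/
abbrev ai (i : Fin (S.N + 1)) : F →ₐ[ℂ] L := D.al (S.y_ne i)

theorem pf_ai (i : Fin (S.N + 1)) : IsPF (D.ai S i) D.β := D.pf_al _

/-- the Borel family -/
def bt (p : BI w S.N) : L := D.κ (a p.1) * D.t ^ w p.1 * D.β (∏ l, S.y (p.2 l))

/-- the monomial of an index in the chart `i` -/
def mo {r : ℕ} (e : Fin r → Fin (S.N + 1)) (i : Fin (S.N + 1)) : M := ∏ l, S.y (e l) / S.y i

theorem mo_mem {r : ℕ} (e : Fin r → Fin (S.N + 1)) (i : Fin (S.N + 1)) : mo S e i ∈ S.A i :=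
  prod_mem fun _ _ => div_mem_chart _ _ _

theorem mo_ne {r : ℕ} (e : Fin r → Fin (S.N + 1)) (i : Fin (S.N + 1)) : mo S e i ≠ 0 :=
  Finset.prod_ne_zero_iff.2 fun _ _ => div_ne_zero (S.y_ne _) (S.y_ne _)

theorem mo_const (r : ℕ) (i : Fin (S.N + 1)) : mo S (fun _ : Fin r => i) i = 1 := by
  simp [mo, S.y_ne i]

theorem bt_eq (p : BI w S.N) (i : Fin (S.N + 1)) :
    D.bt a w S p = D.ai S i (D.wv a w p.1) * D.β (mo S p.2 i) := by
  have h0 : D.β (S.y i) ≠ 0 := (_root_.map_ne_zero _).2 (S.y_ne i)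
  simp only [bt, wv, mo, map_mul, map_pow, al_π, al_τ, Finset.prod_div_distrib, map_div₀,
    Finset.prod_const, Finset.card_univ, Fintype.card_fin, mul_pow]
  field_simp

theorem bt_const (j : ι) (i : Fin (S.N + 1)) :
    D.bt a w S ⟨j, fun _ => i⟩ = D.ai S i (D.wv a w j) := by
  rw [D.bt_eq a w S _ i, mo_const, map_one, mul_one]

/-- the coordinates of the Borel space -/
def by' (p : BI w S.N × Fin (S.N + 1)) : L := D.bt a w S p.1 * D.β (S.y p.2)

theorem by_div (p q : BI w S.N × Fin (S.N + 1)) :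
    D.by' a w S q / D.by' a w S p = D.ai S p.2 (D.wv a w q.1.1 / D.wv a w p.1.1) *
      D.β (mo S q.1.2 p.2 * (S.y q.2 / S.y p.2)) * (D.β (mo S p.1.2 p.2))⁻¹ := by
  rw [by', by', D.bt_eq a w S q.1 p.2, D.bt_eq a w S p.1 p.2]
  simp only [map_div₀, map_mul]
  ring

end Fam

section Model

variable (S : PModel ℂ M) (P : PModel ℂ F) {a : Fin (P.N + 1) → K} {w : Fin (P.N + 1) → ℕ}
  (hP : P.y = D.wv a w)

include hP

theorem wv_ne (j : Fin (P.N + 1)) : D.wv a w j ≠ 0 := hP ▸ P.y_ne j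

theorem by_ne (p : BI w S.N × Fin (S.N + 1)) : D.by' a w S p ≠ 0 := by
  rw [by', D.bt_eq a w S p.1 p.2]
  exact mul_ne_zero (mul_ne_zero ((_root_.map_ne_zero _).2 (D.wv_ne P hP _))
    ((_root_.map_ne_zero _).2 (mo_ne S _ _))) ((_root_.map_ne_zero _).2 (S.y_ne _))

theorem inv_mo_mem (p : BI w S.N × Fin (S.N + 1)) :
    (D.β (mo S p.1.2 p.2))⁻¹ ∈ chI ℂ (D.by' a w S) p := by
  have h := div_mem_chI ℂ (D.by' a w S) p (⟨p.1.1, fun _ => p.2⟩, p.2)
  rwa [by_div, div_self (D.wv_ne P hP _), mo_const, div_self (S.y_ne _), mul_one, map_one,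
    map_one, one_mul, one_mul] at h

theorem base_le (p : BI w S.N × Fin (S.N + 1)) {m : M} (hm : m ∈ S.A p.2) :
    D.β m ∈ chI ℂ (D.by' a w S) p := by
  refine Algebra.adjoin_le (S := (chI ℂ (D.by' a w S) p).comap D.β) ?_ hm
  rintro _ ⟨j, rfl⟩
  have h := div_mem_chI ℂ (D.by' a w S) p (p.1, j)
  rw [by_div, div_self (D.wv_ne P hP _), map_one, one_mul, map_mul, mul_right_comm,
    mul_inv_cancel₀ ((_root_.map_ne_zero _).2 (mo_ne S _ _)), one_mul] at h
  exact h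

theorem pr_le_chI (p : BI w S.N × Fin (S.N + 1)) :
    pr (D.ai S p.2) D.β (P.A p.1.1) (S.A p.2) ≤ chI ℂ (D.by' a w S) p := by
  refine pr_le (fun f hf => ?_) fun m hm => D.base_le S P hP p hm
  refine Algebra.adjoin_le (S := (chI ℂ (D.by' a w S) p).comap (D.ai S p.2)) ?_ hf
  rintro _ ⟨j, rfl⟩
  have h := mul_mem (div_mem_chI ℂ (D.by' a w S) p (⟨j, fun _ => p.2⟩, p.2))
    (D.base_le S P hP p (mo_mem S p.1.2 p.2))
  rw [by_div, mo_const, div_self (S.y_ne _), mul_one, map_one, mul_one,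
    inv_mul_cancel_right₀ ((_root_.map_ne_zero _).2 (mo_ne S _ _)), ← hP] at h
  exact h

theorem chI_loc (p : BI w S.N × Fin (S.N + 1)) : ∀ c ∈ chI ℂ (D.by' a w S) p,
    ∃ d ∈ pr (D.ai S p.2) D.β (P.A p.1.1) (S.A p.2), d ≠ 0 ∧ d⁻¹ ∈ chI ℂ (D.by' a w S) p ∧
      c * d ∈ pr (D.ai S p.2) D.β (P.A p.1.1) (S.A p.2) := by
  intro c hc
  refine Algebra.adjoin_induction (fun c hc => ?_) (fun r => ?_) (fun c c' _ _ h h' => ?_)
    (fun c c' _ _ h h' => ?_) hc
  · obtain ⟨q, rfl⟩ := hc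
    have h0 : D.β (mo S p.1.2 p.2) ≠ 0 := (_root_.map_ne_zero _).2 (mo_ne S _ _)
    refine ⟨_, β_mem_pr (mo_mem S p.1.2 p.2), h0, D.inv_mo_mem S P hP p, ?_⟩
    dsimp only
    rw [by_div, inv_mul_cancel_right₀ h0, ← hP]
    exact mul_mem_pr (div_mem_chart _ _ _) (mul_mem (mo_mem S _ _) (div_mem_chart _ _ _))
  · exact ⟨1, one_mem _, one_ne_zero, by rw [inv_one]; exact one_mem _,
      mul_mem (algebraMap_mem _ r) (one_mem _)⟩
  · obtain ⟨d, h1, h2, h3, h4⟩ := h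
    obtain ⟨d', h1', h2', h3', h4'⟩ := h'
    refine ⟨d * d', mul_mem h1 h1', mul_ne_zero h2 h2', by rw [mul_inv]; exact mul_mem h3 h3', ?_⟩
    have : (c + c') * (d * d') = c * d * d' + c' * d' * d := by ring
    rw [this]
    exact add_mem (mul_mem h4 h1') (mul_mem h4' h1)
  · obtain ⟨d, h1, h2, h3, h4⟩ := h
    obtain ⟨d', h1', h2', h3', h4'⟩ := h'
    refine ⟨d * d', mul_mem h1 h1', mul_ne_zero h2 h2', by rw [mul_inv]; exact mul_mem h3 h3', ?_⟩
    rw [mul_mul_mul_comm]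
    exact mul_mem h4 h4'

theorem of_pr {p : BI w S.N × Fin (S.N + 1)} {O : LP L} (h : O.Of (chI ℂ (D.by' a w S) p)) :
    O.Of (pr (D.ai S p.2) D.β (P.A p.1.1) (S.A p.2)) :=
  of_loc h (D.pr_le_chI S P hP p) (D.chI_loc S P hP p)

/-- the Borel space -/
def mdl : PModel ℂ L :=
  ofFam (D.by' a w S) (D.by_ne S P hP)
    (fun p f => by
      obtain ⟨x, hx, y, hy, h0, h1⟩ := frac_pr (D.pf_ai S p.2) (P.frac' p.1.1) (S.frac' p.2) f
      exact ⟨x, D.pr_le_chI S P hP p hx, y, D.pr_le_chI S P hP p hy, h0, h1⟩)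
    (fun p => smooth_of_lp _ fun O hO => by
      haveI := P.smooth p.1.1
      haveI := S.smooth p.2
      haveI := smooth_pr (D.pf_ai S p.2) (P.A p.1.1) (S.A p.2)
      exact fs_of (D.of_pr S P hP hO))

/-- the numbering of the coordinates -/
def eB : Fin ((D.mdl S P hP).N + 1) ≃ BI w S.N × Fin (S.N + 1) := eI _

theorem mdl_y (i : Fin ((D.mdl S P hP).N + 1)) :
    (D.mdl S P hP).y i = D.by' a w S (D.eB S P hP i) := rfl

theorem mdl_A (i : Fin ((D.mdl S P hP).N + 1)) :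
    (D.mdl S P hP).A i = chI ℂ (D.by' a w S) (D.eB S P hP i) := ofFam_A _ _ _ _ i

end Model

end BF

end Crest.Agent.X262.Ms11
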