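import Crest.Agent.X262.Ms11.Bor0

/-!
# Row 262, road B, Borel spaces (helper11), part 1: points and morphisms

* `D.exists_lp`, `D.mkB`, `lp_mkB`, `mkB_surj` : over the chart `i` of the base the Borel space is
  `P × S` (through the embedding `D.ai S i`);
* `D.prj`   : the projection to `S`;   `D.inv Y` : an invariant morphism `P → Y` gives one on the
  Borel space;  `D.inv2` : the morphism to `Y × S`;
* `D.gn_bt` : Borel families of generating families generate;   `ev_bt` : their values;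
* `D.fib i s`: the fibre over `s`.
-/

set_option autoImplicit false
set_option linter.unusedSectionVars false
set_option linter.style.haveILetI false

noncomputable section

namespace Crest.Agent.X262.Ms11

open Crest.Agent.X277.Lef Crest.Agent.X277.AN.G1 Crest.Agent.X277.Cns
open Crest.Agent.R274.Prod1_134 Crest.Agent.R274.Prod4_134

variable {K F M E₀ L : Type} [Field K] [Algebra ℂ K] [Field F] [Algebra ℂ F] [Field M]
  [Algebra ℂ M] [Field E₀] [Algebra ℂ E₀] [Field L] [Algebra ℂ L]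

namespace BF

variable (D : BF K F M E₀ L) (S : PModel ℂ M) (P : PModel ℂ F) {a : Fin (P.N + 1) → K}
  {w : Fin (P.N + 1) → ℕ} (hP : P.y = D.wv a w)

/-- every point of the Borel space is a pair in a chart of the base -/
theorem exists_lp (b : Pts (D.mdl S P hP)) : ∃ (i : Fin (S.N + 1)) (x : Pts P) (s : Pts S),
    s ∈ pat S i ∧ lp b = lpP (D.pf_ai S i) (lp x) (lp s) := by
  obtain ⟨l, hl⟩ := exists_pat b
  have h1 := lp_of hl
  rw [mdl_A] at h1
  have h2 := D.of_pr S P hP h1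
  set p := D.eB S P hP l
  obtain ⟨u, hu, h3⟩ := exists_lp_eq (P := prod P S (D.pf_ai S p.2))
    (i := (eP P S (D.pf_ai S p.2)).symm (p.1.1, p.2)) (L := lp b) (by rwa [prod_A_symm])
  refine ⟨p.2, _, _, ?_, by rw [← h3, lp_prod]⟩
  rw [← mk_fst_snd _ u, mk_mem_pat, Equiv.apply_symm_apply] at hu
  exact hu.2

theorem exists_pt (i : Fin (S.N + 1)) (x : Pts P) {s : Pts S} (hs : s ∈ pat S i) :
    ∃ b : Pts (D.mdl S P hP), lp b = lpP (D.pf_ai S i) (lp x) (lp s) := by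
  obtain ⟨j, hj⟩ := exists_pat x
  have h1 := lpP_of' (D.pf_ai S i) (lp_of hj) (lp_of hs)
  let p : BI w S.N × Fin (S.N + 1) := (⟨j, fun _ => i⟩, i)
  obtain ⟨b, -, hb⟩ := exists_lp_eq (P := D.mdl S P hP) (i := (D.eB S P hP).symm p)
    (L := lpP (D.pf_ai S i) (lp x) (lp s)) (by
      rw [mdl_A, Equiv.apply_symm_apply]
      refine of_mono h1 (D.pr_le_chI S P hP p) (chI_le fun q => h1.le ?_)
      rw [by_div]
      simp only [p, mo_const, map_one, inv_one, mul_one]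
      rw [← hP]
      exact mul_mem_pr (div_mem_chart _ _ _) (mul_mem (mo_mem S _ _) (div_mem_chart _ _ _)))
  exact ⟨b, hb⟩

/-- the point with fibre coordinate `x` (in the chart `i` of the base) over `s` -/
def mkB (i : Fin (S.N + 1)) (x : Pts P) {s : Pts S} (hs : s ∈ pat S i) : Pts (D.mdl S P hP) :=
  (D.exists_pt S P hP i x hs).choose

theorem lp_mkB (i : Fin (S.N + 1)) (x : Pts P) {s : Pts S} (hs : s ∈ pat S i) :
    lp (D.mkB S P hP i x hs) = lpP (D.pf_ai S i) (lp x) (lp s) :=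
  (D.exists_pt S P hP i x hs).choose_spec

theorem mkB_surj (b : Pts (D.mdl S P hP)) : ∃ (i : Fin (S.N + 1)) (x : Pts P) (s : Pts S)
    (hs : s ∈ pat S i), b = D.mkB S P hP i x hs := by
  obtain ⟨i, x, s, hs, h⟩ := D.exists_lp S P hP b
  exact ⟨i, x, s, hs, eq_of_dom (L := lp b) (dom_refl _) (by rw [lp_mkB, h]; exact dom_refl _)⟩

variable {i : Fin (S.N + 1)} {x : Pts P} {s : Pts S} (hs : s ∈ pat S i)

theorem mem_mkB {f : F} (hf : f ∈ (lp x).O) {m : M} (hm : m ∈ (lp s).O) :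
    D.ai S i f * D.β m ∈ (lp (D.mkB S P hP i x hs)).O := by
  rw [lp_mkB]
  exact (lpP_of _).le (mul_mem_pr hf hm)

theorem ev_mkB {f : F} (hf : f ∈ (lp x).O) {m : M} (hm : m ∈ (lp s).O) :
    ev (D.ai S i f * D.β m) (D.mkB S P hP i x hs) = ev f x * ev m s := by
  unfold ev
  rw [lp_mkB]
  exact lpP_v _ hf hm

theorem mem_mkB_left {f : F} (hf : f ∈ (lp x).O) :
    D.ai S i f ∈ (lp (D.mkB S P hP i x hs)).O := by
  simpa using D.mem_mkB S P hP hs hf (one_mem (lp s).O)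

theorem mem_mkB_right {m : M} (hm : m ∈ (lp s).O) : D.β m ∈ (lp (D.mkB S P hP i x hs)).O := by
  simpa using D.mem_mkB S P hP hs (one_mem (lp x).O) hm

theorem ev_mkB_left {f : F} (hf : f ∈ (lp x).O) :
    ev (D.ai S i f) (D.mkB S P hP i x hs) = ev f x := by
  simpa [ev] using D.ev_mkB S P hP hs hf (one_mem (lp s).O)

theorem ev_mkB_right {m : M} (hm : m ∈ (lp s).O) :
    ev (D.β m) (D.mkB S P hP i x hs) = ev m s := by
  simpa [ev] using D.ev_mkB S P hP hs (one_mem (lp x).O) hm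

theorem crd_mkB {n m : ℕ} {z : Fin n → F} {z' : Fin m → M} (hz : (lp x).Crd z)
    (hz' : (lp s).Crd z') : (lp (D.mkB S P hP i x hs)).Crd
      (Fin.append (fun l => D.ai S i (z l)) fun l => D.β (z' l)) := by
  rw [lp_mkB]
  exact crd_lpP _ hz hz'

theorem mkB_inj {x' : Pts P} (h : D.mkB S P hP i x hs = D.mkB S P hP i x' hs) : x = x' := by
  have h1 := dom_lpP_left (D.pf_ai S i) (lp x) (lp s)
  have h2 := dom_lpP_left (D.pf_ai S i) (lp x') (lp s)
  rw [← D.lp_mkB S P hP i x hs, h] at h1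
  rw [← D.lp_mkB S P hP i x' hs] at h2
  exact eq_of_dom h1 h2

/-! ### generating families -/

theorem bt_div {ι : Type} (a' : ι → K) (w' : ι → ℕ) (j : ι) (q : BI w' S.N) (i : Fin (S.N + 1)) :
    D.bt a' w' S q / D.bt a' w' S ⟨j, fun _ => i⟩ =
      D.ai S i (D.wv a' w' q.1 / D.wv a' w' j) * D.β (mo S q.2 i) := by
  rw [bt_const, D.bt_eq a' w' S q i, map_div₀]
  ring

theorem gn_bt {ι : Type} {a' : ι → K} {w' : ι → ℕ} (h : Gn P (D.wv a' w')) :
    Gn (D.mdl S P hP) (D.bt a' w' S) := by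
  intro b
  obtain ⟨i, x, s, hs, rfl⟩ := D.mkB_surj S P hP b
  obtain ⟨j, hj, h1⟩ := h x
  refine ⟨⟨j, fun _ => i⟩, by rw [bt_const]; exact (map_ne_zero _).2 hj, fun q => ?_⟩
  rw [bt_div]
  exact D.mem_mkB S P hP hs (h1 _) (A_le hs (mo_mem S _ _))

theorem ev_bt {ι : Type} {a' : ι → K} {w' : ι → ℕ} {j : ι} (q : BI w' S.N)
    (h : D.wv a' w' q.1 / D.wv a' w' j ∈ (lp x).O) :
    ev (D.bt a' w' S q / D.bt a' w' S ⟨j, fun _ => i⟩) (D.mkB S P hP i x hs) =
      ev (D.wv a' w' q.1 / D.wv a' w' j) x * ev (mo S q.2 i) s := by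
  rw [bt_div]
  exact D.ev_mkB S P hP hs h (A_le hs (mo_mem S _ _))

theorem gn_β {ι : Type} {u : ι → M} (h : Gn S u) : Gn (D.mdl S P hP) fun l => D.β (u l) := by
  intro b
  obtain ⟨i, x, s, hs, rfl⟩ := D.mkB_surj S P hP b
  obtain ⟨j, hj, h1⟩ := h s
  exact ⟨j, (map_ne_zero _).2 hj, fun l => by
    rw [← map_div₀]; exact D.mem_mkB_right S P hP hs (h1 l)⟩

theorem gn_κ {ι : Type} {u : ι → K} (h : Gn P fun l => D.π (u l)) :
    Gn (D.mdl S P hP) fun l => D.κ (u l) := by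
  intro b
  obtain ⟨i, x, s, hs, rfl⟩ := D.mkB_surj S P hP b
  obtain ⟨j, hj, h1⟩ := h x
  refine ⟨j, (map_ne_zero _).2 ((map_ne_zero _).1 hj), fun l => ?_⟩
  have h2 := D.mem_mkB_left S P hP hs (h1 l)
  rwa [map_div₀, al_π, al_π] at h2

/-! ### morphisms -/

/-- the projection to the base -/
def prj : Mor (D.mdl S P hP) S := morHom D.β fun b =>
  (D.gn_β S P hP gn_y b).imp fun _ h => h.2

theorem prj_p : (D.prj S P hP).p = Plc.ofHom D.β := rfl

@[simp] theorem prj_mkB : (D.prj S P hP).map (D.mkB S P hP i x hs) = s :=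
  Mor.map_eq _ (by rw [lp_mkB]; exact dom_lpP_right _ _ _)

theorem eq_mkB (b : Pts (D.mdl S P hP)) {i : Fin (S.N + 1)}
    (hb : (D.prj S P hP).map b ∈ pat S i) : ∃ x, b = D.mkB S P hP i x hb := by
  -- the coordinates of `P` are regular at `b` through the embedding number `i`
  obtain ⟨q, hq, h1⟩ := D.gn_bt S P hP (a' := a) (w' := w) (hP ▸ gn_y) b
  have hm : ∀ {r : ℕ} (e : Fin r → Fin (S.N + 1)), D.β (mo S e i) ∈ (lp b).O := fun e =>
    hom_mem (D.prj_p S P hP) (A_le hb (mo_mem S e i))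
  have h2 : ∀ j, D.ai S i (P.y j / P.y q.1) ∈ (lp b).O := by
    intro j
    have h3 := mul_mem (h1 ⟨j, fun _ => i⟩) (hm q.2)
    rw [bt_const, D.bt_eq a w S q i, ← hP, div_mul_eq_mul_div,
      mul_div_mul_right _ _ ((map_ne_zero _).2 (mo_ne S _ _)), ← map_div₀] at h3
    exact h3
  obtain ⟨x, -, hx⟩ := exists_dom (P := P) (i := q.1) ((lp b).comap (Plc.ofHom (D.ai S i)))
    fun j => ⟨Algebra.mem_top, h2 j⟩
  refine ⟨x, (eq_of_dom (L := lp b) ?_ (dom_refl _)).symm⟩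
  rw [lp_mkB]
  exact lpP_dom _ hx ((D.prj S P hP).dom b)

/-- an invariant morphism -/
def inv (Y : PModel ℂ K) (h : Gn P fun l => D.π (Y.y l)) : Mor (D.mdl S P hP) Y :=
  morHom D.κ fun b => (D.gn_κ S P hP h b).imp fun _ h => h.2

theorem inv_p (Y : PModel ℂ K) (h : Gn P fun l => D.π (Y.y l)) :
    (D.inv S P hP Y h).p = Plc.ofHom D.κ := rfl

theorem inv_mkB (Y : PModel ℂ K) (h : Gn P fun l => D.π (Y.y l)) {μ : Mor P Y}
    (hμ : μ.p = Plc.ofHom D.π) : (D.inv S P hP Y h).map (D.mkB S P hP i x hs) = μ.map x := by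
  refine Mor.map_eq _ ⟨fun f hf => ⟨Algebra.mem_top, ?_⟩, fun f hf => ?_⟩
  · have h1 := D.mem_mkB_left S P hP hs (hom_mem hμ hf)
    rwa [al_π] at h1
  · have h1 := D.ev_mkB_left S P hP hs (hom_mem hμ hf)
    rw [al_π, hom_ev hμ hf] at h1
    exact h1

/-- the morphism to `Y × S` -/
def inv2 (Y : PModel ℂ K) (h : Gn P fun l => D.π (Y.y l)) :
    Mor (D.mdl S P hP) (prod Y S D.pf) :=
  morHom D.ρ fun b => by
    obtain ⟨j, -, h1⟩ := ((D.gn_κ S P hP h).mul (D.gn_β S P hP gn_y)) b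
    refine ⟨(eP Y S D.pf).symm j, fun l => ?_⟩
    rw [prod_y, prod_y, Equiv.apply_symm_apply, map_mul, map_mul]
    exact h1 (eP Y S D.pf l)

theorem inv2_p (Y : PModel ℂ K) (h : Gn P fun l => D.π (Y.y l)) :
    (D.inv2 S P hP Y h).p = Plc.ofHom D.ρ := rfl

theorem inv2_map (Y : PModel ℂ K) (h : Gn P fun l => D.π (Y.y l)) (b : Pts (D.mdl S P hP)) :
    (D.inv2 S P hP Y h).map b = Crest.Agent.X277.Cns.mk D.pf ((D.inv S P hP Y h).map b) ((D.prj S P hP).map b) := by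
  refine Mor.map_eq _ ?_
  rw [lp_mk]
  refine lpP_dom _ ⟨fun f hf => ⟨Algebra.mem_top, Algebra.mem_top, ?_⟩, fun f hf => ?_⟩
    ⟨fun f hf => ⟨Algebra.mem_top, Algebra.mem_top, ?_⟩, fun f hf => ?_⟩
  · exact hom_mem (D.inv_p S P hP Y h) hf
  · exact hom_ev (D.inv_p S P hP Y h) hf
  · exact hom_mem (D.prj_p S P hP) hf
  · exact hom_ev (D.prj_p S P hP) hf

/-- the fibre over `s` -/
def fib : Mor P (D.mdl S P hP) where
  p := plcP (D.pf_ai S i) (Plc.ofHom (AlgHom.id ℂ F)) (plcL F (lp s))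
  reg x := by
    obtain ⟨j, hj⟩ := exists_pat x
    refine ⟨(D.eB S P hP).symm (⟨j, fun _ => i⟩, i), fun l => ?_⟩
    rw [mdl_y, mdl_y, Equiv.apply_symm_apply, by_div]
    simp only [mo_const, map_one, inv_one, mul_one]
    have h1 := plcP_mul (D.pf_ai S i) (p := Plc.ofHom (AlgHom.id ℂ F)) (q := plcL F (lp s))
      (a := D.wv a w (D.eB S P hP l).1.1 / D.wv a w j) Algebra.mem_top
      (b := mo S (D.eB S P hP l).1.2 i * (S.y (D.eB S P hP l).2 / S.y i))
      (mul_mem (A_le hs (mo_mem S _ _)) (y_mem hs _))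
    refine ⟨h1.1, h1.2 ▸ mul_mem ?_ (algebraMap_mem _ _)⟩
    rw [← hP]
    exact y_mem hj _

theorem fib_map (x : Pts P) : (D.fib S P hP hs).map x = D.mkB S P hP i x hs := by
  refine Mor.map_eq _ ?_
  rw [lp_mkB]
  refine lpP_dom _ ⟨fun f hf => ⟨Algebra.mem_top, ?_⟩, fun f hf => ?_⟩
    ⟨fun f hf => ⟨Algebra.mem_top, ?_⟩, fun f hf => ?_⟩
  · have h1 := plcP_left (D.pf_ai S i) (p := Plc.ofHom (AlgHom.id ℂ F)) (plcL F (lp s))
      (a := f) Algebra.mem_top
    exact ⟨h1.1, h1.2.symm ▸ hf⟩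
  · exact congrArg (lp x).v (plcP_left (D.pf_ai S i) (p := Plc.ofHom (AlgHom.id ℂ F))
      (plcL F (lp s)) (a := f) Algebra.mem_top).2
  · have h1 := plcP_right (D.pf_ai S i) (Plc.ofHom (AlgHom.id ℂ F)) (q := plcL F (lp s)) hf
    exact ⟨h1.1, h1.2.symm ▸ algebraMap_mem _ _⟩
  · exact (congrArg (lp x).v (plcP_right (D.pf_ai S i) (Plc.ofHom (AlgHom.id ℂ F))
      (q := plcL F (lp s)) hf).2).trans ((lp x).v_alg _)

end BF

end Crest.Agent.X262.Ms11
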